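import Mathlib

/-!
Homomorphism densities into kernels that are monotone on a finite distributive lattice, and the
resulting Sidorenko inequality for lattice-monotone bipartite target graphs.
-/

namespace Vale.Agent.P050

open Finset

variable {L : Type} [DistribLattice L] [Fintype L] {V : Type} [Fintype V] [DecidableEq V]

omit [DistribLattice L] in
theorem sum_two (h : L → L → ℝ) {a b : V} (hab : a ≠ b) :
    (∑ z : V → L, h (z a) (z b)) * (Fintype.card L : ℝ) ^ 2 =
      (Fintype.card L : ℝ) ^ Fintype.card V * ∑ x, ∑ y, h x y := by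
  classical
  let b' : {j // j ≠ a} := ⟨b, hab.symm⟩
  have h1 : ∑ z : V → L, h (z a) (z b) =
      ∑ p : L × ({j // j ≠ a} → L), h p.1 (p.2 b') :=
    (Equiv.funSplitAt a L).sum_comp (fun p : L × ({j // j ≠ a} → L) => h p.1 (p.2 b'))
  have h2 : ∀ x : L, ∑ w : {j // j ≠ a} → L, h x (w b') =
      ∑ p : L × ({k : {j // j ≠ a} // k ≠ b'} → L), h x p.1 := fun x =>
    (Equiv.funSplitAt b' L).sum_comp (fun p : L × ({k : {j // j ≠ a} // k ≠ b'} → L) => h x p.1)
  have hc1 : Fintype.card {j // j ≠ a} + 1 = Fintype.card V := by
    have : 0 < Fintype.card V := Fintype.card_pos_iff.2 ⟨a⟩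
    rw [Fintype.card_subtype_compl, Fintype.card_subtype_eq]
    omega
  have hc2 : Fintype.card {k : {j // j ≠ a} // k ≠ b'} + 1 = Fintype.card {j // j ≠ a} := by
    have : 0 < Fintype.card {j // j ≠ a} := Fintype.card_pos_iff.2 ⟨b'⟩
    rw [Fintype.card_subtype_compl, Fintype.card_subtype_eq]
    omega
  rw [h1, Fintype.sum_prod_type, ← hc1, ← hc2]
  simp only [h2, Fintype.sum_prod_type, sum_const, card_univ, Fintype.card_fun, nsmul_eq_mul,
    ← mul_sum]
  push_cast
  ring

/-- Harris's inequality iterated over the edges: any number of edges `i ∈ E` from `s i` to `t i`. -/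
theorem core {ι : Type} (E : Finset ι) (s t : ι → V) (hst : ∀ i ∈ E, s i ≠ t i)
    [Nonempty L] (h : L → L → ℝ) (h0 : ∀ x y, 0 ≤ h x y)
    (hmono : ∀ x x' y y', x ≤ x' → y ≤ y' → h x y ≤ h x' y') :
    (Fintype.card L : ℝ) ^ Fintype.card V * (∑ x, ∑ y, h x y) ^ E.card ≤
      (∑ z : V → L, ∏ i ∈ E, h (z (s i)) (z (t i))) * (Fintype.card L : ℝ) ^ (2 * E.card) := by
  classical
  induction E using Finset.induction_on with
  | empty => simp
  | @insert i E hi ih =>
    have ih' := ih fun j hj => hst j (mem_insert_of_mem hj)
    have hS : 0 ≤ ∑ x, ∑ y, h x y := sum_nonneg fun x _ => sum_nonneg fun y _ => h0 x y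
    have hf := fkg (μ := fun _ : V → L => (1 : ℝ))
      (f := fun z => h (z (s i)) (z (t i))) (g := fun z => ∏ j ∈ E, h (z (s j)) (z (t j)))
      (fun _ => zero_le_one) (fun z => h0 _ _) (fun z => prod_nonneg fun j _ => h0 _ _)
      (fun z w hzw => hmono _ _ _ _ (hzw _) (hzw _))
      (fun z w hzw => prod_le_prod (fun j _ => h0 _ _) fun j _ => hmono _ _ _ _ (hzw _) (hzw _))
      (fun _ _ => le_refl _)
    simp only [one_mul, sum_const, card_univ, nsmul_eq_mul, mul_one, Fintype.card_fun] at hf
    push_cast at hf
    have htwo := sum_two h (hst i (mem_insert_self i E))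
    simp only [prod_insert hi, card_insert_of_notMem hi]
    set N : ℝ := (Fintype.card L : ℝ) ^ Fintype.card V
    set c : ℝ := (Fintype.card L : ℝ)
    have hc : 0 < c := by
      simp only [c, Nat.cast_pos]
      exact Fintype.card_pos
    have hN : 0 < N := pow_pos hc _
    refine le_of_mul_le_mul_left ?_ hN
    calc N * (N * (∑ x, ∑ y, h x y) ^ (E.card + 1))
        = (N * ∑ x, ∑ y, h x y) * (N * (∑ x, ∑ y, h x y) ^ E.card) := by rw [pow_succ]; ring
      _ ≤ (N * ∑ x, ∑ y, h x y) *
          ((∑ z : V → L, ∏ j ∈ E, h (z (s j)) (z (t j))) * c ^ (2 * E.card)) :=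
        mul_le_mul_of_nonneg_left ih' (mul_nonneg hN.le hS)
      _ = ((∑ z : V → L, h (z (s i)) (z (t i))) *
          ∑ z : V → L, ∏ j ∈ E, h (z (s j)) (z (t j))) * c ^ (2 * (E.card + 1)) := by
        rw [← htwo]; ring
      _ ≤ (N * ∑ z : V → L, h (z (s i)) (z (t i)) * ∏ j ∈ E, h (z (s j)) (z (t j))) *
          c ^ (2 * (E.card + 1)) := mul_le_mul_of_nonneg_right hf (pow_nonneg hc.le _)
      _ = _ := by ring

omit [Fintype L] [Fintype V] [DecidableEq V] in
/-- Bipartite graph on two copies of `L` with cross edges given by `r`. -/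
def bip (r : L → L → Prop) : SimpleGraph (L ⊕ L) where
  Adj := fun p q => match p, q with
    | Sum.inl x, Sum.inr y => r x y
    | Sum.inr y, Sum.inl x => r x y
    | _, _ => False
  symm := ⟨by rintro (x | x) (y | y) <;> exact id⟩
  loopless := ⟨by rintro (x | x) <;> exact id⟩

/-- The vertex two-colourings that are constant along every edge in `E`. -/
def flat (E : Finset (V × V)) : Finset (V → Bool) :=
  univ.filter fun f => ∀ e ∈ E, f e.1 = f e.2

theorem card_flat (E : Finset (V × V)) : 2 ^ Fintype.card V ≤ 2 ^ E.card * (flat E).card := by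
  classical
  induction E using Finset.induction_on with
  | empty => simp [flat]
  | @insert e E he ih =>
    rw [card_insert_of_notMem he]
    refine ih.trans ?_
    have key : (flat E).card ≤ 2 * (flat (insert e E)).card := by
      have hsplit := card_filter_add_card_filter_not (s := flat E)
        fun f : V → Bool => f e.1 = f e.2
      have heq : (flat E).filter (fun f : V → Bool => f e.1 = f e.2) = flat (insert e E) := by
        ext f; simp [flat, and_comm]
      rw [heq] at hsplit
      rcases ((flat E).filter fun f : V → Bool => ¬ f e.1 = f e.2).eq_empty_or_nonempty with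
        hemp | ⟨f0, hf0⟩
      · rw [hemp] at hsplit; simp only [card_empty] at hsplit; omega
      · simp only [flat, mem_filter, mem_univ, true_and] at hf0
        have : ((flat E).filter fun f : V → Bool => ¬ f e.1 = f e.2).card ≤
            (flat (insert e E)).card := by
          refine card_le_card_of_injOn (fun g v => xor (g v) (f0 v)) ?_ ?_
          · intro g hg
            simp only [flat, coe_filter, Set.mem_ofPred_eq, mem_filter, mem_univ, true_and] at hg ⊢
            intro q hq
            rcases mem_insert.1 hq with rfl | hq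
            · have h1 := hg.2
              have h2 := hf0.2
              revert h1 h2
              cases g q.1 <;> cases g q.2 <;> cases f0 q.1 <;> cases f0 q.2 <;> simp
            · rw [hg.1 q hq, hf0.1 q hq]
          · intro g _ g' _ hgg
            funext v
            have := congrFun hgg v
            dsimp only at this
            revert this
            cases g v <;> cases g' v <;> cases f0 v <;> simp
        omega
    calc 2 ^ E.card * (flat E).card ≤ 2 ^ E.card * (2 * (flat (insert e E)).card) :=
          Nat.mul_le_mul_left _ key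
      _ = _ := by rw [pow_succ]; ring

/-- Sidorenko's inequality, cleared of denominators, for lattice-monotone bipartite targets. -/
theorem sidorenko_bip [Nonempty L] (r : L → L → Prop)
    (hr : ∀ x x' y y', x ≤ x' → y ≤ y' → r x y → r x' y')
    (H : SimpleGraph V) (hH : H.Colorable 2) :
    Nat.card (L ⊕ L) ^ Fintype.card V * (2 * (bip r).edgeSet.ncard) ^ H.edgeSet.ncard ≤
      Nat.card (H →g bip r) * Nat.card (L ⊕ L) ^ (2 * H.edgeSet.ncard) := by
  classical
  obtain ⟨col⟩ := hH
  let c : V → Bool := fun v => decide (col v = 1)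
  have hc : ∀ a b, H.Adj a b → c a ≠ c b := by
    intro a b hab
    have := col.valid hab
    revert this
    simp only [c]
    generalize col a = x
    generalize col b = y
    fin_cases x <;> fin_cases y <;> simp
  let E : Finset (V × V) := univ.filter fun e => H.Adj e.1 e.2 ∧ c e.1 = false
  have hE1 : ∀ e ∈ E, H.Adj e.1 e.2 ∧ c e.1 = false ∧ c e.2 = true := by
    intro e he
    simp only [E, mem_filter, mem_univ, true_and] at he
    have := hc _ _ he.1
    exact ⟨he.1, he.2, by revert this; rw [he.2]; cases c e.2 <;> simp⟩
  have hEcard : H.edgeSet.ncard = E.card := by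
    have himg : H.edgeSet = (fun e : V × V => s(e.1, e.2)) '' (E : Set (V × V)) := by
      ext q
      induction q using Sym2.ind with
      | _ a b =>
        simp only [SimpleGraph.mem_edgeSet, Set.mem_image, mem_coe, Prod.exists, Sym2.eq_iff]
        constructor
        · intro hab
          cases hca : c a with
          | false => exact ⟨a, b, by simp [E, hab, hca], Or.inl ⟨rfl, rfl⟩⟩
          | true =>
            have hcb : c b = false := by
              have := hc a b hab
              rw [hca] at this
              revert this; cases c b <;> simp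
            exact ⟨b, a, by simp [E, hab.symm, hcb], Or.inr ⟨rfl, rfl⟩⟩
        · rintro ⟨x, y, hxy, ⟨rfl, rfl⟩ | ⟨rfl, rfl⟩⟩
          · exact (hE1 _ hxy).1
          · exact (hE1 _ hxy).1.symm
    rw [himg, Set.InjOn.ncard_image, Set.ncard_coe_finset]
    intro e he f hf hef
    simp only [Sym2.eq_iff] at hef
    rcases hef with ⟨h1, h2⟩ | ⟨h1, h2⟩
    · exact Prod.ext h1 h2
    · have := (hE1 e he).2.1
      rw [h1, (hE1 f hf).2.2] at this
      cases this
  let S : Finset (L × L) := univ.filter fun p => r p.1 p.2
  have hGcard : (bip r).edgeSet.ncard = S.card := by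
    have himg : (bip r).edgeSet =
        (fun p : L × L => s(Sum.inl p.1, Sum.inr p.2)) '' (S : Set (L × L)) := by
      ext q
      induction q using Sym2.ind with
      | _ a b => cases a <;> cases b <;> simp [bip, S]
    rw [himg, Set.InjOn.ncard_image, Set.ncard_coe_finset]
    intro p _ q _ hpq
    simpa [Sym2.eq_iff, Prod.ext_iff] using hpq
  rw [hEcard, hGcard]
  let ok : (V → Bool) → Finset (V → L) := fun g => univ.filter fun z => ∀ e ∈ E,
    r (z (if g e.1 then e.2 else e.1)) (z (if g e.1 then e.1 else e.2))
  have hok : ∀ g, Fintype.card L ^ Fintype.card V * S.card ^ E.card ≤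
      (ok g).card * Fintype.card L ^ (2 * E.card) := by
    intro g
    have hcore := core (L := L) E (fun e => if g e.1 then e.2 else e.1)
      (fun e => if g e.1 then e.1 else e.2)
      (fun e he => by have := (hE1 e he).1.ne; split_ifs <;> [exact this.symm; exact this])
      (fun x y => if r x y then (1 : ℝ) else 0) (fun x y => by split_ifs <;> norm_num)
      (fun x x' y y' hx hy => by
        by_cases q : r x y
        · rw [if_pos q, if_pos (hr _ _ _ _ hx hy q)]
        · rw [if_neg q]; split_ifs <;> norm_num)
    have hsum : ∑ x : L, ∑ y : L, (if r x y then (1 : ℝ) else 0) = (S.card : ℝ) := by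
      rw [← Fintype.sum_prod_type', sum_boole]
    have hprod : ∑ z : V → L, ∏ e ∈ E, (if r (z (if g e.1 then e.2 else e.1))
        (z (if g e.1 then e.1 else e.2)) then (1 : ℝ) else 0) = ((ok g).card : ℝ) := by
      simp only [prod_boole, ok]
      rw [← sum_boole]
      convert rfl
    rw [hsum, hprod] at hcore
    exact_mod_cast hcore
  have hhom : ∑ g ∈ flat E, (ok g).card ≤ Nat.card (H →g bip r) := by
    rw [← card_sigma, ← Nat.card_eq_finsetCard]
    let φ : ↥((flat E).sigma ok) → (V → L ⊕ L) := fun p v =>
      if xor (c v) (p.1.1 v) then Sum.inr (p.1.2 v) else Sum.inl (p.1.2 v)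
    have hφ : ∀ p : ↥((flat E).sigma ok), ∀ e ∈ E, (bip r).Adj (φ p e.1) (φ p e.2) := by
      intro p e he
      obtain ⟨hg, hz⟩ := mem_sigma.1 p.2
      simp only [flat, mem_filter, mem_univ, true_and] at hg
      simp only [ok, mem_filter, mem_univ, true_and] at hz
      have hzz := hz e he
      have hge := hg e he
      obtain ⟨-, h1, h2⟩ := hE1 e he
      simp only [φ, h1, h2, ← hge]
      cases hb : p.1.1 e.1 <;> rw [hb] at hzz <;> simpa [bip] using hzz
    have hadj : ∀ p, ∀ a b, H.Adj a b → (bip r).Adj (φ p a) (φ p b) := by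
      intro p a b hab
      cases hca : c a with
      | false => exact hφ p (a, b) (by simp [E, hab, hca])
      | true =>
        have hcb : c b = false := by
          have := hc a b hab
          rw [hca] at this
          revert this; cases c b <;> simp
        exact (hφ p (b, a) (by simp [E, hab.symm, hcb])).symm
    refine Nat.card_le_card_of_injective
      (fun p => (⟨φ p, fun {a b} => hadj p a b⟩ : H →g bip r)) ?_
    intro p q hpq
    have hv : ∀ v, φ p v = φ q v := fun v => congrArg (fun f : H →g bip r => f v) hpq
    have hg : p.1.1 = q.1.1 := funext fun v => by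
      have := hv v
      revert this
      simp only [φ]
      cases c v <;> cases p.1.1 v <;> cases q.1.1 v <;> simp
    have hz : p.1.2 = q.1.2 := funext fun v => by
      have := hv v
      simp only [φ, hg] at this
      split_ifs at this <;> simpa using this
    exact Subtype.ext (Sigma.ext hg (heq_of_eq hz))
  have hflat := card_flat E
  have hn : Nat.card (L ⊕ L) = 2 * Fintype.card L := by
    rw [Nat.card_eq_fintype_card, Fintype.card_sum, two_mul]
  rw [hn]
  calc (2 * Fintype.card L) ^ Fintype.card V * (2 * S.card) ^ E.card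
      = 2 ^ Fintype.card V * 2 ^ E.card * (Fintype.card L ^ Fintype.card V * S.card ^ E.card) := by
        rw [mul_pow, mul_pow]; ring
    _ ≤ (2 ^ E.card * (flat E).card) * 2 ^ E.card *
        (Fintype.card L ^ Fintype.card V * S.card ^ E.card) := by gcongr
    _ = 2 ^ (2 * E.card) *
        ∑ _g ∈ flat E, Fintype.card L ^ Fintype.card V * S.card ^ E.card := by
        rw [sum_const, smul_eq_mul, two_mul, pow_add]; ring
    _ ≤ 2 ^ (2 * E.card) * ∑ g ∈ flat E, (ok g).card * Fintype.card L ^ (2 * E.card) := by
        exact Nat.mul_le_mul_left _ (sum_le_sum fun g _ => hok g)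
    _ = (∑ g ∈ flat E, (ok g).card) * (2 * Fintype.card L) ^ (2 * E.card) := by
        rw [← sum_mul, mul_pow]; ring
    _ ≤ _ := by gcongr

end Vale.Agent.P050
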